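/-
Row 82 (S0109), WP-Ca (part of helper63): cell masses depend continuously on the weights.
Statement verbatim from `Crest.Agent.Helper75.OT.Spec.continuous_gM`, but declared in the namespace
`Crest.Agent.Helper63.OT` (NOT `Crest.Agent.Helper75.OT`): the same Spec item is also provided by
`Crest.Agent.Helper82.OT.LagCont` and `Crest.Agent.Helper59.OT.ContGM` under the Spec name, and a
third declaration of that name would clash for any file importing two of them.
-/
import Crest.Agent.Helper59.OT.Rho2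

set_option autoImplicit false

noncomputable section

open MeasureTheory Filter Topology
open scoped ENNReal NNReal RealInnerProductSpace

namespace Crest.Agent.Helper63.OT

open Crest.AnalysisR.OT Crest.Agent.Helper75.OT

variable {d : ℕ}

namespace ContGM

/-- The Laguerre cell as an intersection of `K` with finitely many closed half-spaces. -/
theorem Lag_eq_inter (K : Set (E d)) (S : Finset (E d)) (w : E d → ℝ) (c : E d) :
    Lag K S w c = K ∩ ⋂ c' ∈ S, {x : E d | ⟪x, c'⟫ - w c' ≤ ⟪x, c⟫ - w c} := by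
  ext x
  simp [Lag]

theorem measurableSet_Lag' {K : Set (E d)} (hK : MeasurableSet K) (S : Finset (E d))
    (w : E d → ℝ) (c : E d) : MeasurableSet (Lag K S w c) := by
  rw [Lag_eq_inter]
  refine hK.inter (S.measurableSet_biInter fun c' _ => ?_)
  have h1 : Continuous fun x : E d => ⟪x, c'⟫ - w c' := by fun_prop
  have h2 : Continuous fun x : E d => ⟪x, c⟫ - w c := by fun_prop
  exact (isClosed_le h1 h2).measurableSet

/-- Off the tie hyperplanes, membership in the cell is eventually constant. -/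
theorem eventually_mem_Lag_iff (K : Set (E d)) (S : Finset (E d)) (c : E d)
    (w : ℕ → E d → ℝ) (w0 : E d → ℝ) (hc : c ∈ S)
    (hw : ∀ a ∈ S, Tendsto (fun k => w k a) atTop (𝓝 (w0 a))) (x : E d)
    (hx : ∀ c' ∈ S, c' ≠ c → ⟪x, c' - c⟫ ≠ w0 c' - w0 c) :
    ∀ᶠ k in atTop, x ∈ Lag K S (w k) c ↔ x ∈ Lag K S w0 c := by
  have key : ∀ c' ∈ S, ∀ᶠ k in atTop,
      (⟪x, c'⟫ - w k c' ≤ ⟪x, c⟫ - w k c ↔ ⟪x, c'⟫ - w0 c' ≤ ⟪x, c⟫ - w0 c) := by
    intro c' hc'
    by_cases hcc : c' = c
    · subst hcc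
      exact Eventually.of_forall fun k => by simp
    · have hne := hx c' hc' hcc
      rw [inner_sub_right] at hne
      have ht : Tendsto (fun k => (⟪x, c⟫ - w k c) - (⟪x, c'⟫ - w k c')) atTop
          (𝓝 ((⟪x, c⟫ - w0 c) - (⟪x, c'⟫ - w0 c'))) :=
        ((tendsto_const_nhds.sub (hw c hc)).sub (tendsto_const_nhds.sub (hw c' hc')))
      rcases lt_or_gt_of_ne hne with hlt | hgt
      · -- strict inequality `⟪x,c'⟫ - w0 c' < ⟪x,c⟫ - w0 c`
        have hpos : 0 < (⟪x, c⟫ - w0 c) - (⟪x, c'⟫ - w0 c') := by linarith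
        filter_upwards [ht.eventually (lt_mem_nhds hpos)] with k hk
        constructor
        · intro _; linarith
        · intro _; linarith
      · have hneg : (⟪x, c⟫ - w0 c) - (⟪x, c'⟫ - w0 c') < 0 := by linarith
        filter_upwards [ht.eventually (gt_mem_nhds hneg)] with k hk
        constructor
        · intro h; linarith
        · intro h; linarith
  have key2 : ∀ᶠ k in atTop, ∀ c' ∈ S,
      (⟪x, c'⟫ - w k c' ≤ ⟪x, c⟫ - w k c ↔ ⟪x, c'⟫ - w0 c' ≤ ⟪x, c⟫ - w0 c) :=
    (eventually_all_finset S).mpr key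
  filter_upwards [key2] with k hk
  simp only [Lag, Set.mem_ofPred_eq]
  constructor
  · rintro ⟨hxK, h⟩
    exact ⟨hxK, fun c' hc' => (hk c' hc').mp (h c' hc')⟩
  · rintro ⟨hxK, h⟩
    exact ⟨hxK, fun c' hc' => (hk c' hc').mpr (h c' hc')⟩

/-- Almost every point avoids all tie hyperplanes. -/
theorem ae_not_tie (K : Set (E d)) (S : Finset (E d)) (c : E d) (w0 : E d → ℝ) :
    ∀ᵐ x ∂(uniformProbOn K), ∀ c' ∈ S, c' ≠ c → ⟪x, c' - c⟫ ≠ w0 c' - w0 c := by
  have h : ∀ c' ∈ S, ∀ᵐ x ∂(uniformProbOn K), c' ≠ c → ⟪x, c' - c⟫ ≠ w0 c' - w0 c := by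
    intro c' _
    by_cases hcc : c' = c
    · exact Eventually.of_forall fun x h => absurd hcc h
    · have hnull := rho_hyperplane (K := K) (c' - c) (sub_ne_zero.mpr hcc) (w0 c' - w0 c)
      have hae : ∀ᵐ x ∂(uniformProbOn K), x ∉ {x : E d | ⟪x, c' - c⟫ = w0 c' - w0 c} :=
        measure_eq_zero_iff_ae_notMem.mp hnull
      filter_upwards [hae] with x hx _
      exact hx
  exact (eventually_all_finset S).mpr h

end ContGM

/-- Cell masses depend continuously on the weights. -/
theorem continuous_gM {K : Set (E d)} (hK : Body K) (S : Finset (E d)) (c : E d) (hc : c ∈ S)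
    (w : ℕ → E d → ℝ) (w0 : E d → ℝ) (hw : ∀ a ∈ S, Tendsto (fun k => w k a) atTop (𝓝 (w0 a))) :
    Tendsto (fun k => gM K S (w k) c) atTop (𝓝 (gM K S w0 c)) := by
  have := rho_prob hK
  have hKm : MeasurableSet K := hK.compact.isClosed.measurableSet
  have hlim : ∀ᵐ x ∂(uniformProbOn K), ∀ᶠ k in atTop,
      x ∈ Lag K S (w k) c ↔ x ∈ Lag K S w0 c := by
    filter_upwards [ContGM.ae_not_tie K S c w0] with x hx
    exact ContGM.eventually_mem_Lag_iff K S c w w0 hc hw x hx
  have h := tendsto_measure_of_ae_tendsto_indicator_of_isFiniteMeasure atTop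
    (ContGM.measurableSet_Lag' hKm S w0 c) (fun k => ContGM.measurableSet_Lag' hKm S (w k) c) hlim
  unfold gM
  exact (ENNReal.tendsto_toReal (measure_ne_top _ _)).comp h

end Crest.Agent.Helper63.OT
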